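import Vale.Agent.P024.H409.Dens4
import Vale.Agent.P024.SolvClosedFacts
import Vale.Agent.P024.Q1.Spec

/-!
P024: the block GEN of the proof of Uchida's conjecture for totally real fields.
-/

namespace Vale.Agent.P024.H558.Q1

open Polynomial IntermediateField
open scoped NumberField
open IsDedekindDomain

universe u v

/-- for all primes `l` outside a finite set the cyclotomic polynomial of index `l` is irreducible
over a number field -/
theorem irred_cofinite (N : Type*) [Field N] [NumberField N] : ∃ T : Set ℕ, T.Finite ∧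
    ∀ l : ℕ, l.Prime → l ∉ T → Irreducible (cyclotomic l N) := by
  refine ⟨resChar '' {w : HeightOneSpectrum (𝓞 N) | ∃ p : ℕ, p.Prime ∧ (p : 𝓞 N) ∈ w.asIdeal ∧
      w.valuation N (p : N) ≠ WithZero.exp (-1 : ℤ)}, (finite_ramified N).image _, ?_⟩
  intro l hl hlT
  obtain ⟨P, hP⟩ : ∃ P : HeightOneSpectrum (𝓞 N), (l : 𝓞 N) ∈ P.asIdeal := by
    have hnu : ¬ IsUnit (l : 𝓞 N) := by
      intro hu
      have h1 : Ideal.absNorm (Ideal.span {(l : 𝓞 N)}) = 1 := by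
        rw [Ideal.span_singleton_eq_top.2 hu, Ideal.absNorm_top]
      rw [Ideal.absNorm_span_natCast] at h1
      have h2 : Module.finrank ℤ (𝓞 N) ≠ 0 := by
        rw [NumberField.RingOfIntegers.rank]
        exact (Module.finrank_pos (R := ℚ) (M := N)).ne'
      have h3 := (Nat.pow_eq_one.1 h1).resolve_right h2
      exact hl.one_lt.ne' h3
    obtain ⟨I, hI, hle⟩ := exists_max_ideal_of_mem_nonunits
      (show (l : 𝓞 N) ∈ nonunits (𝓞 N) from hnu)
    refine ⟨⟨I, hI.isPrime, ?_⟩, hle⟩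
    rintro rfl
    exact hl.ne_zero (by exact_mod_cast (Ideal.mem_bot.1 hle))
  refine H409.irreducible_cyclotomic N hl P hP ?_
  by_contra hne
  apply hlT
  refine ⟨P, ⟨l, hl, hP, hne⟩, ?_⟩
  exact (prime_mem_unique P (resChar_spec P).1 hl (resChar_spec P).2.1 hP)

/-- an automorphism with a prescribed action on a primitive root of unity -/
theorem exists_aut {K E : Type*} [Field K] [Field E] [Algebra K E] [Normal K E] {m : ℕ}
    (hm : 0 < m) (hirr : Irreducible (cyclotomic m K)) {ζ : E} (hζ : IsPrimitiveRoot ζ m)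
    {c : ℕ} (hc : c.Coprime m) : ∃ σ : E ≃ₐ[K] E, σ ζ = ζ ^ c := by
  have h0 : ∀ ξ : E, IsPrimitiveRoot ξ m → aeval ξ (cyclotomic m K) = 0 := by
    intro ξ hξ
    rw [aeval_def, eval₂_eq_eval_map, map_cyclotomic]
    exact hξ.isRoot_cyclotomic hm
  have h1 := minpoly.eq_of_irreducible_of_monic hirr (h0 ζ hζ) (cyclotomic.monic m K)
  have h2 : aeval (ζ ^ c) (minpoly K ζ) = 0 := by
    rw [← h1]
    exact h0 _ (hζ.pow_of_coprime c hc)
  have h3 : IsAlgebraic K ζ := ⟨cyclotomic m K, cyclotomic_ne_zero m K, h0 ζ hζ⟩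
  exact minpoly.exists_algEquiv_of_root' h3 h2

/-- the powers of an automorphism on a root of unity -/
theorem pow_apply {F E : Type*} [Field F] [Field E] [Algebra F E] {ζ : E} (γ : E ≃ₐ[F] E) {a : ℕ}
    (h : γ ζ = ζ ^ a) (m : ℕ) : (γ ^ m) ζ = ζ ^ (a ^ m) := by
  induction m with
  | zero => simp
  | succ m ih =>
    rw [pow_succ', AlgEquiv.mul_apply, ih, map_pow, h, ← pow_mul, ← pow_succ']

theorem pow_modEq {E : Type*} [Field E] {ζ : E} {m : ℕ} (hm : 0 < m) (hζ : IsPrimitiveRoot ζ m)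
    {i j : ℕ} (h : ζ ^ i = ζ ^ j) : i ≡ j [MOD m] := by
  have h0 : ζ ≠ 0 := hζ.ne_zero hm.ne'
  rcases le_total i j with hij | hij
  · have h1 : ζ ^ (j - i) = 1 := by
      apply mul_left_cancel₀ (pow_ne_zero i h0)
      rw [← pow_add, Nat.add_sub_cancel' hij, mul_one, h]
    exact (Nat.modEq_iff_dvd' hij).2 (hζ.dvd_of_pow_eq_one _ h1)
  · have h1 : ζ ^ (i - j) = 1 := by
      apply mul_left_cancel₀ (pow_ne_zero j h0)
      rw [← pow_add, Nat.add_sub_cancel' hij, mul_one, h]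
    exact ((Nat.modEq_iff_dvd' hij).2 (hζ.dvd_of_pow_eq_one _ h1)).symm

/-- a primitive root modulo a prime -/
theorem exists_gen {p : ℕ} (hp : p.Prime) : ∃ a : ℕ, a.Coprime p ∧
    orderOf (a : ZMod p) = p - 1 := by
  have : Fact p.Prime := ⟨hp⟩
  obtain ⟨g, hg⟩ := IsCyclic.exists_ofOrder_eq_natCard (α := (ZMod p)ˣ)
  refine ⟨(g : ZMod p).val, ?_, ?_⟩
  · exact ZMod.val_coe_unit_coprime g
  · rw [ZMod.natCast_zmod_val, orderOf_units, hg, Nat.card_eq_fintype_card, ZMod.card_units]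

theorem main {F : Type u} {E : Type v} [Field F] [Field E] [CharZero E] [Algebra F E]
    [IsGalois F E] (hroot : ∀ n : ℕ, 0 < n → ∃ z : E, IsPrimitiveRoot z n)
    (hF : ∃ T : Set ℕ, T.Finite ∧ ∀ l : ℕ, l.Prime → l ∉ T → Irreducible (cyclotomic l F))
    (hN : ∀ N : IntermediateField F E, FiniteDimensional F N →
      ∃ T : Set ℕ, T.Finite ∧ ∀ l : ℕ, l.Prime → l ∉ T → Irreducible (cyclotomic l N))
    (n : ℕ) :
    ∃ W₁ : Subgroup (E ≃ₐ[F] E), W₁.Normal ∧ IsOpen (W₁ : Set (E ≃ₐ[F] E)) ∧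
      ∀ (W : Subgroup (E ≃ₐ[F] E)) [W.Normal], IsOpen (W : Set (E ≃ₐ[F] E)) → W ≤ W₁ →
      ∃ B : Set ℕ, B.Finite ∧ ∀ p : ℕ, p.Prime → p ∉ B → ∃ (γ : E ≃ₐ[F] E) (a : ℕ),
        (∀ z : E, z ^ p = 1 → γ z = z ^ a) ∧ orderOf (a : ZMod p) = p - 1 ∧
        ∀ l : ℕ, l.Prime → l ≤ n → l ∣ orderOf (γ : (E ≃ₐ[F] E) ⧸ W) := by
  obtain ⟨T, hT, hTirr⟩ := hF
  -- the auxiliary prime
  obtain ⟨r, hr, hrT, hrn⟩ : ∃ r : ℕ, r.Prime ∧ r ∉ T ∧ r ≡ 1 [MOD n.factorial] := by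
    obtain ⟨b, hb⟩ := hT.bddAbove
    obtain ⟨r, hr, hbr, hrn⟩ := Nat.exists_prime_gt_modEq_one b (Nat.factorial_ne_zero n)
    exact ⟨r, hr, fun h => absurd (hb h) (by omega), hrn⟩
  have hirr := hTirr r hr hrT
  obtain ⟨ζ, hζ⟩ := hroot r hr.pos
  have hact : ∀ g : E ≃ₐ[F] E, ∃ k : ℕ, g ζ = ζ ^ k := by
    intro g
    have h1 : (g ζ) ^ r = 1 := by rw [← map_pow, hζ.pow_eq_one, map_one]
    obtain ⟨k, _, hk⟩ := @IsPrimitiveRoot.eq_pow_of_pow_eq_one E _ _ r ⟨hr.ne_zero⟩ ζ (g ζ) hζ h1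
    exact ⟨k, hk.symm⟩
  have hmem : ∀ g : E ≃ₐ[F] E, g ∈ F⟮ζ⟯.fixingSubgroup ↔ g ζ = ζ := by
    intro g
    constructor
    · intro h
      exact (IntermediateField.mem_fixingSubgroup_iff _ _).1 h ζ (mem_adjoin_simple_self F ζ)
    · intro h
      have h1 : Subgroup.zpowers g ≤ F⟮ζ⟯.fixingSubgroup := by
        rw [← IntermediateField.le_iff_le, adjoin_simple_le_iff]
        rintro ⟨m, hm⟩
        obtain ⟨k, hk⟩ := Subgroup.mem_zpowers_iff.1 hm
        show m ζ = ζ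
        have h2 : g ∈ MulAction.stabilizer (E ≃ₐ[F] E) ζ := h
        have h3 := Subgroup.zpow_mem _ h2 k
        rw [hk] at h3
        exact h3
      exact h1 (Subgroup.mem_zpowers g)
  have hfd : FiniteDimensional F F⟮ζ⟯ := by
    refine IntermediateField.adjoin.finiteDimensional ?_
    exact (IsGalois.integral F ζ)
  refine ⟨F⟮ζ⟯.fixingSubgroup, ⟨?_⟩, IntermediateField.fixingSubgroup_isOpen _, ?_⟩
  · intro g hg h
    rw [hmem] at hg ⊢
    obtain ⟨k, hk⟩ := hact h⁻¹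
    rw [AlgEquiv.mul_apply, AlgEquiv.mul_apply, hk, map_pow, hg, ← hk, ← AlgEquiv.mul_apply,
      mul_inv_cancel, AlgEquiv.one_apply]
  intro W hWn hWo hW1
  -- the fixed field of `W`
  let Wc : ClosedSubgroup (E ≃ₐ[F] E) := ⟨W, Subgroup.isClosed_of_isOpen W hWo⟩
  have hfix : (IntermediateField.fixedField W).fixingSubgroup = W :=
    InfiniteGalois.fixingSubgroup_fixedField Wc
  have hNfd : FiniteDimensional F (IntermediateField.fixedField W) := by
    rw [← InfiniteGalois.isOpen_iff_finite]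
    show IsOpen ((IntermediateField.fixedField W).fixingSubgroup : Set (E ≃ₐ[F] E))
    rw [hfix]
    exact hWo
  obtain ⟨TN, hTN, hTNirr⟩ := hN _ hNfd
  obtain ⟨a0, ha0r, ha0⟩ := exists_gen hr
  obtain ⟨γ₀, hγ₀⟩ := exists_aut hr.pos hirr hζ ha0r
  have hdvd : r - 1 ∣ orderOf (γ₀ : (E ≃ₐ[F] E) ⧸ W) := by
    rw [← ha0]
    apply orderOf_dvd_of_pow_eq_one
    have h1 : γ₀ ^ orderOf (γ₀ : (E ≃ₐ[F] E) ⧸ W) ∈ W := by
      rw [← QuotientGroup.eq_one_iff, QuotientGroup.mk_pow, pow_orderOf_eq_one]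
    have h2 := (hmem _).1 (hW1 h1)
    rw [pow_apply γ₀ hγ₀] at h2
    have h3 : ζ ^ (a0 ^ orderOf (γ₀ : (E ≃ₐ[F] E) ⧸ W)) = ζ ^ 1 := by rw [h2, pow_one]
    have h4 := (ZMod.natCast_eq_natCast_iff _ _ _).2 (pow_modEq hr.pos hζ h3)
    push_cast at h4
    exact h4
  refine ⟨TN, hTN, fun p hp hpT => ?_⟩
  have hpirr := hTNirr p hp hpT
  obtain ⟨ξ, hξ⟩ := hroot p hp.pos
  obtain ⟨a, hap, ha⟩ := exists_gen hp
  have hpf : Fact p.Prime := ⟨hp⟩
  have hγξ : ∃ b : ℕ, γ₀ ξ = ξ ^ b := by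
    have h1 : (γ₀ ξ) ^ p = 1 := by rw [← map_pow, hξ.pow_eq_one, map_one]
    obtain ⟨k, _, hk⟩ := hξ.eq_pow_of_pow_eq_one h1
    exact ⟨k, hk.symm⟩
  obtain ⟨b, hb⟩ := hγξ
  have hbp : b.Coprime p := by
    have h1 : IsPrimitiveRoot (γ₀ ξ) p := hξ.map_of_injective γ₀.injective
    rw [hb] at h1
    exact (hξ.pow_iff_coprime hp.pos b).1 h1
  have hb0 : (b : ZMod p) ≠ 0 := by
    intro h
    rw [ZMod.natCast_eq_zero_iff] at h
    have := Nat.Coprime.eq_one_of_dvd hbp.symm h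
    exact hp.one_lt.ne' this
  have ha0' : (a : ZMod p) ≠ 0 := by
    intro h
    rw [ZMod.natCast_eq_zero_iff] at h
    have := Nat.Coprime.eq_one_of_dvd hap.symm h
    exact hp.one_lt.ne' this
  set c : ℕ := ((a : ZMod p) * (b : ZMod p)⁻¹).val with hc
  have hcz : (c : ZMod p) = (a : ZMod p) * (b : ZMod p)⁻¹ := by
    rw [hc, ZMod.natCast_zmod_val]
  have hcp : c.Coprime p := by
    rw [Nat.coprime_comm, Nat.Prime.coprime_iff_not_dvd hp, ← ZMod.natCast_eq_zero_iff, hcz]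
    exact mul_ne_zero ha0' (inv_ne_zero hb0)
  obtain ⟨δ, hδ⟩ := exists_aut (K := IntermediateField.fixedField W) (E := E) hp.pos hpirr hξ hcp
  let δ' : E ≃ₐ[F] E := δ.restrictScalars F
  have hδ' : δ' ξ = ξ ^ c := hδ
  have hδW : δ' ∈ W := by
    rw [← hfix]
    refine (IntermediateField.mem_fixingSubgroup_iff _ _).2 fun x hx => ?_
    exact δ.commutes ⟨x, hx⟩
  have hγ : (γ₀ * δ') ξ = ξ ^ a := by
    rw [AlgEquiv.mul_apply, hδ', map_pow, hb, ← pow_mul]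
    refine pow_eq_pow_of_modEq ?_ hξ.pow_eq_one
    rw [← ZMod.natCast_eq_natCast_iff]
    push_cast
    rw [hcz, mul_comm, mul_assoc, inv_mul_cancel₀ hb0, mul_one]
  refine ⟨γ₀ * δ', a, ?_, ha, ?_⟩
  · intro z hz
    obtain ⟨k, _, rfl⟩ := hξ.eq_pow_of_pow_eq_one hz
    rw [map_pow, hγ, ← pow_mul, ← pow_mul, mul_comm]
  · intro l hl hln
    have h1 : ((γ₀ * δ' : E ≃ₐ[F] E) : (E ≃ₐ[F] E) ⧸ W) = (γ₀ : (E ≃ₐ[F] E) ⧸ W) := by
      rw [QuotientGroup.mk_mul, (QuotientGroup.eq_one_iff δ').2 hδW, mul_one]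
    rw [h1]
    refine dvd_trans ?_ hdvd
    refine dvd_trans (hl.dvd_factorial.2 hln) ?_
    exact (Nat.modEq_iff_dvd' hr.one_lt.le).1 hrn.symm

theorem propGen : Vale.Agent.P024.Q1.PropGen.{u, v} := by
  intro F E _ _ _ _ _ hE n
  have hcz : CharZero E := charZero_of_injective_algebraMap (algebraMap F E).injective
  refine main (fun n hn => hE.exists_primitiveRoot n hn) (irred_cofinite F) (fun N hN => ?_) n
  have : NumberField N := NumberField.of_module_finite F N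
  exact irred_cofinite N

end Vale.Agent.P024.H558.Q1
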